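import Vale.Agent.P267.H646.Per
import Vale.Agent.P267.H646.Cut
import Vale.Agent.P267.H877.Leaves
import Vale.Agent.P267.H877.Dual

/-!
# P267 / XA-EX (helper646): holomorphic structures with prescribed decay on line bundles which are
trivial at the ends, and their periodisations: `ExLeaf` from `T2Leaf` and `T2sLeaf`
-/

set_option linter.unusedVariables false
set_option linter.unusedSectionVars false
set_option linter.unusedSimpArgs false

open scoped Manifold ContDiff ComplexConjugate Matrix ComplexOrder Topology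
open MeasureTheory Set Filter

noncomputable section

namespace Vale.Agent.P267.H646

open FL XT

/-! ### weights -/

/-- the weight `e^{-N|j|}` -/
def wN (N : ℝ) (j : ℤ) : ℝ := Real.exp (-(N * |(j : ℝ)|))

theorem isWt_wN {N : ℝ} (hN : 0 ≤ N) : IsWt N (wN N) where
  pos j := Real.exp_pos _
  up j := by
    rw [wN, wN, ← Real.exp_add]
    apply Real.exp_le_exp.2
    push_cast
    have h : |(j : ℝ)| ≤ |(j : ℝ) + 1| + 1 := by
      cases abs_cases (j : ℝ) <;> cases abs_cases ((j : ℝ) + 1) <;> linarith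
    nlinarith
  down j := by
    rw [wN, wN, ← Real.exp_add]
    apply Real.exp_le_exp.2
    push_cast
    have h : |(j : ℝ) + 1| ≤ |(j : ℝ)| + 1 := by
      cases abs_cases (j : ℝ) <;> cases abs_cases ((j : ℝ) + 1) <;> linarith
    nlinarith

theorem isWt_one : IsWt 0 fun _ => 1 where
  pos j := one_pos
  up j := by simp
  down j := by simp

variable {M : Type} [TopologicalSpace M] [ChartedSpace C2 M]
variable (D : XTData M)

theorem abs_f_le {j : ℤ} {x : M} (hx : x ∈ D.slab j) : |D.f x| ≤ |(j : ℝ)| + 1 := by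
  obtain ⟨h1, h2⟩ := hx
  cases abs_cases (j : ℝ) <;> cases abs_cases (D.f x) <;> linarith

theorem abs_le_f {j : ℤ} {x : M} (hx : x ∈ D.slab j) : |(j : ℝ)| ≤ |D.f x| + 1 := by
  obtain ⟨h1, h2⟩ := hx
  cases abs_cases (j : ℝ) <;> cases abs_cases (D.f x) <;> linarith

theorem wN_le {N : ℝ} (hN : 0 ≤ N) {j : ℤ} {x : M} (hx : x ∈ D.slab j) :
    wN N j ≤ Real.exp N * Real.exp (-(N * |D.f x|)) := by
  rw [wN, ← Real.exp_add]
  apply Real.exp_le_exp.2
  have := abs_f_le D hx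
  nlinarith

variable [IsManifold 𝓘(ℂ, C2) ω M]
variable {ι : Type} [Fintype ι] [DecidableEq ι]

theorem F02_end {L : LB M ι} {i₀ : ι} {R : ℝ}
    (hR : ∀ x, R ≤ |D.f x| → L.P x = Matrix.single i₀ i₀ 1) {x : M} (hx : R < |D.f x|) :
    L.F02 x = 0 :=
  F02_eq_zero (P₀ := Matrix.single i₀ i₀ 1)
    (((continuous_f D).abs.continuousAt.eventually (lt_mem_nhds hx)).mono fun y hy => hR y hy.le)

/-- EXISTENCE of a holomorphic structure with decay `e^{-N|f|}` -/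
theorem exists_endTriv (h2s : D.T2sLeaf) (L : LB M ι) (i₀ : ι) {R : ℝ}
    (hR : ∀ x, R ≤ |D.f x| → L.P x = Matrix.single i₀ i₀ 1) {N : ℝ} (hN : 0 < N) :
    ∃ a, D.EndTriv L i₀ a R N := by
  obtain ⟨k₀, C, hC0, h2⟩ := h2s N
  have hr : Reg2 ∞ 0 (fun x => -L.F02 x) := reg2_iff_at.2 fun x => ((reg2_F02 L).at x).neg
  have hr0 : ∀ x, R < |D.f x| → -L.F02 x = 0 := fun x hx => by rw [F02_end D hR hx, neg_zero]
  obtain ⟨B₀, hB₀, hB⟩ : ∃ B₀, 0 ≤ B₀ ∧ ∀ x, n2 D.h 0 (fun x => -L.F02 x) x ≤ B₀ := by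
    obtain ⟨B, hB⟩ := (D.f_proper (-R) R).bddAbove_image (continuous_n2 D.herm hr).continuousOn
    refine ⟨max B 0, le_max_right _ _, fun x => ?_⟩
    by_cases hx : |D.f x| ≤ R
    · exact (hB ⟨x, abs_le.1 hx, rfl⟩).trans (le_max_left _ _)
    · rw [n2, hr0 x (not_le.1 hx), norm_zero, zero_mul]
      exact le_max_right _ _
  set B : ℝ := B₀ * Real.exp (N * (|R| + 2)) with hBdef
  have hBn : 0 ≤ B := mul_nonneg hB₀ (Real.exp_pos _).le
  have hp : ∀ j, D.p2 0 (fun x => -L.F02 x) j ≤ B * wN N j := by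
    intro j
    refine D.prof_le (mul_nonneg hBn (Real.exp_pos _).le) fun x hx => ?_
    by_cases hx' : |D.f x| ≤ R
    · refine (hB x).trans ?_
      rw [hBdef, wN, mul_assoc, ← Real.exp_add]
      refine le_mul_of_one_le_right hB₀ (Real.one_le_exp ?_)
      have h1 := abs_le_f D hx
      have h3 := le_abs_self R
      nlinarith
    · rw [n2, hr0 x (not_le.1 hx'), norm_zero, zero_mul]
      exact mul_nonneg hBn (Real.exp_pos _).le
  obtain ⟨v, hv, hdv, hpv, hC1⟩ := h2 (wN N) (isWt_wN hN.le) _ hr B hBn hp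
  have hCB : 0 ≤ C * B := mul_nonneg hC0 hBn
  have hfar : ∀ x, C * B * wN N ⌊D.f x⌋ ≤ C * B * Real.exp N * Real.exp (-(N * |D.f x|)) := by
    intro x
    rw [mul_assoc (C * B)]
    exact mul_le_mul_of_nonneg_left (wN_le D hN.le (D.mem_slab_floor x)) hCB
  refine ⟨v, ⟨⟨hv, fun x => by rw [hdv]; ring⟩, hR, ⟨C * B * Real.exp N, fun x => ?_⟩, ?_⟩⟩
  · have h1 := D.le_prof (continuous_n1 D.herm hv) (D.mem_slab_floor x)
    exact h1.trans ((hpv _).trans (hfar x))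
  · have hcont : Continuous fun x => ‖trh D.h (del1 v) x‖ :=
      (H334.continuous_trh D.herm (H469.reg_del1 hv)).norm
    obtain ⟨A, hA⟩ := (D.f_proper (-(|R| + k₀ + 2)) (|R| + k₀ + 2)).bddAbove_image hcont.continuousOn
    refine ⟨C * B * Real.exp N + max A 0 * Real.exp (N * (|R| + k₀ + 2)), fun x => ?_⟩
    rw [add_mul]
    have e0 : 0 ≤ C * B * Real.exp N * Real.exp (-(N * |D.f x|)) := by positivity
    have e1 : 0 ≤ max A 0 * Real.exp (N * (|R| + k₀ + 2)) * Real.exp (-(N * |D.f x|)) := by positivity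
    by_cases hx : |D.f x| ≤ |R| + k₀ + 2
    · have h1 : ‖trh D.h (del1 v) x‖ ≤ max A 0 := (hA ⟨x, abs_le.1 hx, rfl⟩).trans (le_max_left _ _)
      have h3 : max A 0 ≤ max A 0 * Real.exp (N * (|R| + k₀ + 2)) * Real.exp (-(N * |D.f x|)) := by
        rw [mul_assoc, ← Real.exp_add]
        refine le_mul_of_one_le_right (le_max_right _ _) (Real.one_le_exp ?_)
        nlinarith
      linarith
    · have h1 := hC1 ⌊D.f x⌋ (fun y hy => hr0 y ?_) x (D.mem_slab_floor x)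
      · have h3 := hfar x
        linarith
      · have h3 := abs_f_le D (D.mem_slab_floor x)
        have h4 := le_abs_self R
        have h5 : |((⌊D.f x⌋ : ℤ) : ℝ)| ≤ |D.f y| + k₀ := by
          have := abs_sub_abs_le_abs_sub ((⌊D.f x⌋ : ℤ) : ℝ) (D.f y)
          rw [abs_sub_comm] at this
          linarith
        linarith [not_le.1 hx]

/-! ### the periodisations -/

theorem dbar0_add_const (c : ℂ) (x : M) :
    dbar0 0 (fun y => (D.f y : ℂ) + c) x = dbar0 0 (fun y => (D.f y : ℂ)) x := by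
  rw [dbar0_add ((D.f_smooth.at x).of_le (by simp)) at0_const, FL.dbar0_const, add_zero]

/-- `∂̄f` is bounded -/
theorem exists_n1_dbar_f :
    ∃ G, 0 ≤ G ∧ ∀ x, n1 D.h 0 (dbar0 0 fun y => (D.f y : ℂ)) x ≤ G := by
  have hreg : Reg1 ∞ 0 (dbar0 0 fun y => (D.f y : ℂ)) := D.f_smooth.dbar (by simp)
  obtain ⟨G, hG⟩ := H334.bdd_of_inv D (continuous_n1 D.herm hreg) (fun k x => by
    rw [← D.n1_comp_sh]
    congr 1
    funext y
    rw [← (D.chartMap_sh k).dbar0_comp]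
    simp only [D.f_sh]
    push_cast
    exact dbar0_add_const D _ y)
  exact ⟨max G 0, le_max_right _ _, fun x => (hG x).trans (le_max_left _ _)⟩

/-- `∂̄(g ∘ f) = g'(f) ∂̄f` -/
theorem dbar0_rcomp {g : ℝ → ℝ} (hg : ContDiff ℝ ∞ g) (x : M) (i : Fin 2) :
    dbar0 0 (fun y => ((g (D.f y) : ℝ) : ℂ)) x i =
      ((deriv g (D.f x) : ℝ) : ℂ) * dbar0 0 (fun y => (D.f y : ℂ)) x i := by
  have h1 := (D.f_smooth.contDiffAt (chart_mem_atlas C2 x) (mem_chart_target C2 x)).of_le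
    H334.two_le_inf
  rw [LB.loc0_zero] at h1
  have h2 : ContDiffAt ℝ 2 (fun z => D.f ((chartAt C2 x).symm z)) (chartAt C2 x x) :=
    Complex.reCLM.contDiff.contDiffAt.comp (chartAt C2 x x) h1
  have h3 := H334.dzb_rcomp (h2.differentiableAt (by norm_num))
    ((hg.differentiable (by simp)).differentiableAt) i
    (φ := fun z => D.f ((chartAt C2 x).symm z)) (g := g)
  simp only [(chartAt C2 x).left_inv (mem_chart_source C2 x)] at h3
  rw [dbar0, dbar0, LB.loc0_zero, LB.loc0_zero]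
  exact h3

/-- a component of a vector valued form -/
theorem n1_ev_le {h : M → Matrix (Fin 2) (Fin 2) ℂ} (hh : IsHerm h) (κ : ℤ)
    (v : M → Fin 2 → EuclideanSpace ℂ ι) (i₀ : ι) (x : M) :
    n1 h κ (fun y i => v y i i₀) x ≤ n1 h κ v x := by
  obtain ⟨B, hB, -⟩ := exists_coframe (hh.posDef x)
  rw [n1_coframe κ _ x hB, n1_coframe κ _ x hB]
  refine mul_le_mul_of_nonneg_right (Real.sqrt_le_sqrt ?_) (Real.rpow_nonneg (dh_pos hh x).le _)
  have e : ∀ k, ‖∑ p, conj (B k p) • v x p i₀‖ ≤ ‖∑ p, conj (B k p) • v x p‖ := by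
    intro k
    have h1 : ∑ p, conj (B k p) • v x p i₀ = (∑ p, conj (B k p) • v x p) i₀ := by
      simp [Fin.sum_univ_two]
    rw [h1]
    exact PiLp.norm_apply_le _ _
  gcongr <;> exact e _

theorem act_single_apply (i₀ : ι) (w : EuclideanSpace ℂ ι) :
    (LB.act (Matrix.single i₀ i₀ (1 : ℂ)) w) i₀ = w i₀ := by
  rw [LB.act_apply, Finset.sum_eq_single i₀]
  · simp
  · intro j _ hj
    simp [Matrix.single_apply, hj.symm]
  · intro h
    exact absurd (Finset.mem_univ _) h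

theorem act_single_single (i₀ : ι) :
    LB.act (Matrix.single i₀ i₀ (1 : ℂ)) (EuclideanSpace.single i₀ (1 : ℂ)) =
      EuclideanSpace.single i₀ (1 : ℂ) := by
  ext k
  rw [LB.act_apply, Finset.sum_eq_single i₀]
  · by_cases hk : k = i₀
    · subst hk
      simp
    · simp [Matrix.single_apply, hk, Ne.symm hk]
  · intro j _ hj
    simp [Matrix.single_apply, hj.symm]
  · intro h
    exact absurd (Finset.mem_univ _) h

/-- `T2m` of the trivial bundle in scalar form -/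
theorem scalar_T2m (i₀ : ι) {m : ℕ} {C₂ : ℝ}
    (h2 : D.T2m (LB.triv i₀ : LB M ι) (fun _ _ => 0) m 1 (fun _ => 1) C₂) {e : M → ℂ}
    (her : Reg2 ∞ 0 e) (hes : ∀ x, e (D.sh m x) = e x) {B : ℝ} (hB0 : 0 ≤ B)
    (hB : ∀ x, n2 D.h 0 e x ≤ B) :
    ∃ b : M → Fin 2 → ℂ, Reg1 ∞ 0 b ∧ (∀ x, b (D.sh m x) = b x) ∧ (∀ x, dbar1 0 b x = e x) ∧
      ∀ x, n1 D.h 0 b x ≤ C₂ * B := by
  have hnee : ‖(EuclideanSpace.single i₀ (1 : ℂ) : EuclideanSpace ℂ ι)‖ = 1 := by simp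
  have hr : Reg2 ∞ 0 fun x => (e x) • (EuclideanSpace.single i₀ (1 : ℂ) : EuclideanSpace ℂ ι) :=
    reg2_iff_at.2 fun x => ((her.at x).clm
      ((ContinuousLinearMap.id ℂ ℂ).smulRight (EuclideanSpace.single i₀ (1 : ℂ))))
  have hsec : (LB.triv i₀ : LB M ι).Sec fun x => (e x) • EuclideanSpace.single i₀ (1 : ℂ) := by
    intro x
    rw [LB.act_smul]
    exact congrArg (fun w => e x • w) (act_single_single i₀)
  have heq : D.Equiv m 1 fun x => (e x) • (EuclideanSpace.single i₀ (1 : ℂ) : EuclideanSpace ℂ ι) := by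
    intro x
    show e (D.sh m x) • (EuclideanSpace.single i₀ (1 : ℂ) : EuclideanSpace ℂ ι) =
      (1 : ℂ) • (e x • EuclideanSpace.single i₀ (1 : ℂ))
    rw [hes, one_smul]
  have hp : ∀ j, D.p2 0 (fun x => (e x) •
      (EuclideanSpace.single i₀ (1 : ℂ) : EuclideanSpace ℂ ι)) j ≤ B * 1 := by
    intro j
    rw [mul_one]
    refine D.prof_le hB0 fun x _ => ?_
    have h3 := hB x
    rw [n2] at h3
    rw [n2, norm_smul, hnee, mul_one]
    exact h3
  obtain ⟨v, hv, hvs, hve, hdv, hpv⟩ := h2 _ hr hsec heq B hB0 hp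
  refine ⟨fun x i => v x i i₀, reg1_iff_at.2 fun x => (hv.at x).clm (LB.ev i₀), fun x => ?_,
    fun x => ?_, fun x => ?_⟩
  · have := hve x
    rw [one_smul] at this
    show (fun i => v (D.sh m x) i i₀) = _
    rw [this]
  · have h1 : dbar1 0 (fun x i => v x i i₀) x = LB.ev i₀ (dbar1 0 v x) :=
      dbar1_clm (LB.ev i₀) ((hv.at x).of_le (by simp))
    have h3 := hdv x
    simp only [LB.db1, zero_smul, sub_zero, add_zero] at h3
    have h4 : (LB.act (Matrix.single i₀ i₀ (1 : ℂ)) (dbar1 0 v x)) i₀ = (dbar1 0 v x) i₀ :=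
      act_single_apply i₀ _
    have h5 : (LB.act (Matrix.single i₀ i₀ (1 : ℂ)) (dbar1 0 v x)) i₀ =
      ((e x) • (EuclideanSpace.single i₀ (1 : ℂ) : EuclideanSpace ℂ ι)) i₀ := by rw [← h3]; rfl
    rw [h1, LB.ev_apply, ← h4, h5]
    simp
  · refine (n1_ev_le D.herm 0 v i₀ x).trans ?_
    have h1 := D.le_prof (continuous_n1 D.herm hv) (D.mem_slab_floor x)
    have h3 := hpv ⌊D.f x⌋
    rw [mul_one] at h3
    exact h1.trans h3

/-- cut-off of the form `a` to the window `|f| ≤ c` -/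
def cutf (c : ℝ) (a : M → Fin 2 → ℂ) (x : M) (i : Fin 2) : ℂ := ((psi c (D.f x) : ℝ) : ℂ) • a x i

/-- the error of the cut-off -/
def err (c : ℝ) (a : M → Fin 2 → ℂ) (x : M) : ℂ :=
  dbar0 0 (fun y => ((psi c (D.f y) : ℝ) : ℂ)) x 0 • a x 1 -
    dbar0 0 (fun y => ((psi c (D.f y) : ℝ) : ℂ)) x 1 • a x 0

theorem reg0_psi (c : ℝ) : Reg0 ∞ 0 fun y => ((psi c (D.f y) : ℝ) : ℂ) :=
  H334.reg0_rcomp D.f_smooth (psi_smooth c)

theorem reg1_cutf (c : ℝ) {a : M → Fin 2 → ℂ} (ha : Reg1 ∞ 0 a) : Reg1 ∞ 0 (cutf D c a) :=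
  reg1_iff_at.2 fun x => At1.smul ((reg0_psi D c).at x) (ha.at x)

theorem reg2_err (c : ℝ) {a : M → Fin 2 → ℂ} (ha : Reg1 ∞ 0 a) : Reg2 ∞ 0 (err D c a) :=
  reg2_iff_at.2 fun x => At2.wedge_smul (((reg0_psi D c).at x).dbar (by simp)) (ha.at x)

theorem cutf_zero {c : ℝ} (a : M → Fin 2 → ℂ) {x : M} (hx : c - 1 / 2 ≤ |D.f x|) :
    cutf D c a x = fun _ => 0 := by
  funext i
  rw [cutf, psi_zero hx, Complex.ofReal_zero, zero_smul]

theorem dbar0_psi (c : ℝ) (x : M) (i : Fin 2) :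
    dbar0 0 (fun y => ((psi c (D.f y) : ℝ) : ℂ)) x i =
      ((deriv (psi c) (D.f x) : ℝ) : ℂ) * dbar0 0 (fun y => (D.f y : ℂ)) x i :=
  dbar0_rcomp D (psi_smooth c) x i

theorem err_zero {c : ℝ} (a : M → Fin 2 → ℂ) {x : M}
    (hx : |D.f x| < c - 1 ∨ c - 1 / 2 < |D.f x|) : err D c a x = 0 := by
  rw [err, dbar0_psi, dbar0_psi, deriv_psi_zero hx]
  simp

theorem dbar1_cutf {L : LB M ι} {i₀ : ι} {R : ℝ}
    (hR : ∀ x, R ≤ |D.f x| → L.P x = Matrix.single i₀ i₀ 1) {c : ℝ} (hc : R ≤ c - 1)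
    {a : M → Fin 2 → ℂ} (ha : L.IsHol a) (x : M) :
    dbar1 0 (cutf D c a) x + L.F02 x = err D c a x := by
  have h1 : dbar1 0 (cutf D c a) x = err D c a x + ((psi c (D.f x) : ℝ) : ℂ) • dbar1 0 a x :=
    dbar1_smul (((reg0_psi D c).at x).of_le (by simp)) ((ha.smooth.at x).of_le (by simp))
  have h3 := ha.integrable x
  rw [h1]
  by_cases hx : |D.f x| ≤ R
  · rw [psi_one (by linarith), Complex.ofReal_one, one_smul]
    linear_combination h3
  · have h4 : L.F02 x = 0 := F02_end D hR (not_le.1 hx)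
    rw [h4, add_zero] at h3 ⊢
    rw [h3, smul_zero, add_zero]

theorem n2_err_le {c : ℝ} {N : ℝ} (hN : 0 < N) {a : M → Fin 2 → ℂ} {Ca : ℝ} (hCa : 0 ≤ Ca)
    (hd : ∀ x, n1 D.h 0 a x ≤ Ca * Real.exp (-(N * |D.f x|))) {K G : ℝ} (hK0 : 0 ≤ K)
    (hK : ∀ s, |deriv chi s| ≤ K) (hG0 : 0 ≤ G)
    (hG : ∀ x, n1 D.h 0 (dbar0 0 fun y => (D.f y : ℂ)) x ≤ G) (x : M) :
    n2 D.h 0 (err D c a) x ≤ 2 * K * G * Ca * Real.exp N * Real.exp (-(N * c)) := by
  by_cases hx : |D.f x| < c - 1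
  · rw [n2, err_zero D a (Or.inl hx), norm_zero, zero_mul]
    positivity
  · have h1 := n2_wedge_le D.herm 0 (dbar0 0 fun y => ((psi c (D.f y) : ℝ) : ℂ)) a x
    have h3 : n1 D.h 0 (dbar0 0 fun y => ((psi c (D.f y) : ℝ) : ℂ)) x ≤ 2 * K * G := by
      have h4 : (dbar0 0 fun y => ((psi c (D.f y) : ℝ) : ℂ)) =
          fun y => ((deriv (psi c) (D.f y) : ℝ) : ℂ) • dbar0 0 (fun y => (D.f y : ℂ)) y := by
        funext y i
        exact dbar0_psi D c y i
      rw [h4, n1_smul, Complex.norm_real]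
      exact mul_le_mul (deriv_psi_le hK _ _) (hG x) (n1_nonneg D.herm _ _ _) (by positivity)
    have h5 : n1 D.h 0 a x ≤ Ca * (Real.exp N * Real.exp (-(N * c))) := by
      refine (hd x).trans (mul_le_mul_of_nonneg_left ?_ hCa)
      rw [← Real.exp_add]
      apply Real.exp_le_exp.2
      have := not_lt.1 hx
      nlinarith
    calc n2 D.h 0 (err D c a) x ≤ n1 D.h 0 (dbar0 0 fun y => ((psi c (D.f y) : ℝ) : ℂ)) x *
          n1 D.h 0 a x := h1
      _ ≤ (2 * K * G) * (Ca * (Real.exp N * Real.exp (-(N * c)))) :=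
          mul_le_mul h3 h5 (n1_nonneg D.herm _ _ _) (by positivity)
      _ = _ := by ring

theorem n1_cutf_sub_le {c : ℝ} {N : ℝ} (hN : 0 < N) {a : M → Fin 2 → ℂ} {Ca : ℝ} (hCa : 0 ≤ Ca)
    (hd : ∀ x, n1 D.h 0 a x ≤ Ca * Real.exp (-(N * |D.f x|))) (x : M) :
    n1 D.h 0 (fun y i => (((psi c (D.f y) : ℝ) : ℂ) - 1) • a y i) x ≤
      Ca * Real.exp N * Real.exp (-(N * c)) := by
  have h4 := n1_smul (h := D.h) 0 (fun y => ((psi c (D.f y) : ℝ) : ℂ) - 1) a x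
  have h5 : n1 D.h 0 (fun y i => (((psi c (D.f y) : ℝ) : ℂ) - 1) • a y i) x =
    ‖((psi c (D.f x) : ℝ) : ℂ) - 1‖ * n1 D.h 0 a x := h4
  rw [h5]
  by_cases hx' : |D.f x| ≤ c - 1
  · rw [psi_one hx', Complex.ofReal_one, sub_self, norm_zero, zero_mul]
    positivity
  · have h6 : ‖((psi c (D.f x) : ℝ) : ℂ) - 1‖ ≤ 1 := by
      have : ((psi c (D.f x) : ℝ) : ℂ) - 1 = ((psi c (D.f x) - 1 : ℝ) : ℂ) := by simp
      rw [this, Complex.norm_real, Real.norm_eq_abs, abs_le]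
      constructor <;> linarith [psi_nonneg c (D.f x), psi_le_one c (D.f x)]
    calc ‖((psi c (D.f x) : ℝ) : ℂ) - 1‖ * n1 D.h 0 a x ≤ 1 * n1 D.h 0 a x :=
          mul_le_mul_of_nonneg_right h6 (n1_nonneg D.herm _ _ _)
      _ = n1 D.h 0 a x := one_mul _
      _ ≤ Ca * Real.exp (-(N * |D.f x|)) := hd x
      _ ≤ Ca * (Real.exp N * Real.exp (-(N * c))) := by
          refine mul_le_mul_of_nonneg_left ?_ hCa
          rw [← Real.exp_add]
          apply Real.exp_le_exp.2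
          have := not_le.1 hx'
          nlinarith
      _ = _ := by ring

/-- in the closed window the periodisation of the cut-off form is the cut-off form -/
theorem cutf_mv {m : ℕ} (hm : 0 < (m : ℤ)) (a : M → Fin 2 → ℂ) {x : M}
    (hx : |D.f x| ≤ (m : ℝ) / 2) : cutf D ((m : ℝ) / 2) a (D.mv m x) = cutf D ((m : ℝ) / 2) a x := by
  rcases hx.lt_or_eq with h | h
  · rw [D.mv_eq_self hm (by push_cast; exact h)]
  · rw [cutf_zero D a (x := x) (by rw [h]; linarith), cutf_zero D a]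
    by_contra hcon
    push Not at hcon
    rw [f_mv] at hcon
    push_cast at hcon
    have hm0 : (0 : ℝ) < m := by exact_mod_cast hm
    have h4 : |(m : ℝ) * D.win m x| < m * 1 := by
      have h5 : (m : ℝ) * D.win m x = D.f x - (D.f x - m * D.win m x) := by ring
      rw [h5]
      have := abs_sub (D.f x) (D.f x - m * D.win m x)
      linarith
    rw [abs_mul, abs_of_pos hm0] at h4
    have h6 := lt_of_mul_lt_mul_left h4 hm0.le
    have h7 : D.win m x = 0 := by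
      have h8 : |D.win m x| < 1 := by exact_mod_cast h6
      exact Int.abs_lt_one_iff.1 h8
    rw [h7, Int.cast_zero, mul_zero, sub_zero] at hcon
    linarith

theorem exists_window (L : LB M ι) (i₀ : ι) {R : ℝ}
    (hR : ∀ x, R ≤ |D.f x| → L.P x = Matrix.single i₀ i₀ 1) {N : ℝ} (hN : 0 < N)
    {a : M → Fin 2 → ℂ} (ha : L.IsHol a) {Ca : ℝ} (hCa : 0 ≤ Ca)
    (hd : ∀ x, n1 D.h 0 a x ≤ Ca * Real.exp (-(N * |D.f x|))) {K G : ℝ} (hK0 : 0 ≤ K)
    (hK : ∀ s, |deriv chi s| ≤ K) (hG0 : 0 ≤ G)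
    (hG : ∀ x, n1 D.h 0 (dbar0 0 fun y => (D.f y : ℂ)) x ≤ G)
    (m : ℕ) (hm : 0 < (m : ℤ)) (hmR : 2 * R + 2 ≤ ((m : ℤ) : ℝ)) {C₂ : ℝ} (hC₂ : 0 ≤ C₂)
    (h2 : D.T2m (LB.triv i₀ : LB M ι) (fun _ _ => 0) m 1 (fun _ => 1) C₂) :
    ∃ am : M → Fin 2 → ℂ, (perL D L i₀ hR m hm hmR).IsHol am ∧ (∀ x, am (D.sh m x) = am x) ∧
      ∀ x, |D.f x| ≤ (m : ℝ) / 2 → n1 D.h 0 (fun y => am y - a y) x ≤
        (Ca * Real.exp N + C₂ * (2 * K * G * Ca * Real.exp N)) * Real.exp (-(N * (m / 2))) := by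
  have hmR' : 2 * R + 2 ≤ (m : ℝ) := by exact_mod_cast hmR
  have h0 : ∀ y, ((m : ℤ) : ℝ) / 2 - 1 / 2 < |D.f y| → cutf D ((m : ℝ) / 2) a y = fun _ => 0 :=
    fun y hy => cutf_zero D a (by push_cast at hy; exact hy.le)
  have h0' : ∀ y, ((m : ℤ) : ℝ) / 2 - 1 / 2 < |D.f y| → err D ((m : ℝ) / 2) a y = 0 :=
    fun y hy => err_zero D a (Or.inr (by push_cast at hy; exact hy))
  have hhalf : (0 : ℝ) < 1 / 2 := by norm_num
  have hcr : Reg1 ∞ 0 fun x => cutf D ((m : ℝ) / 2) a (D.mv m x) :=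
    reg1_per D hm hhalf h0 (reg1_cutf D _ ha.smooth)
  have her : Reg2 ∞ 0 fun x => -(err D ((m : ℝ) / 2) a (D.mv m x)) :=
    reg2_iff_at.2 fun x => ((reg2_per D hm hhalf h0' (reg2_err D _ ha.smooth)).at x).neg
  have hes : ∀ x, -(err D ((m : ℝ) / 2) a (D.mv m (D.sh m x))) =
      -(err D ((m : ℝ) / 2) a (D.mv m x)) := fun x => by rw [D.mv_sh hm.ne']
  have heb : ∀ x, n2 D.h 0 (fun x => -(err D ((m : ℝ) / 2) a (D.mv m x))) x ≤
      2 * K * G * Ca * Real.exp N * Real.exp (-(N * (m / 2))) := by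
    intro x
    have h3 := n2_err_le D (c := (m : ℝ) / 2) hN hCa hd hK0 hK hG0 hG (D.mv m x)
    rw [n2, dh, XTData.mv, D.h_sh] at h3
    rw [n2, norm_neg]
    exact h3
  obtain ⟨b, hb, hbs, hdb, hnb⟩ := scalar_T2m D i₀ h2 her hes (by positivity) heb
  refine ⟨fun x i => cutf D ((m : ℝ) / 2) a (D.mv m x) i + b x i, ⟨?_, fun x => ?_⟩,
    fun x => ?_, fun x hx => ?_⟩
  · exact reg1_iff_at.2 fun x => (hcr.at x).add (hb.at x)
  · have h1 : dbar1 0 (fun x i => cutf D ((m : ℝ) / 2) a (D.mv m x) i + b x i) x =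
        dbar1 0 (fun x => cutf D ((m : ℝ) / 2) a (D.mv m x)) x + dbar1 0 b x :=
      dbar1_add ((hcr.at x).of_le (by simp)) ((hb.at x).of_le (by simp))
    rw [h1, dbar1_per D hm hhalf h0 x, hdb, perL_F02]
    linear_combination dbar1_cutf D hR (c := (m : ℝ) / 2) (by linarith) ha (D.mv m x)
  · funext i
    show cutf D ((m : ℝ) / 2) a (D.mv m (D.sh m x)) i + b (D.sh m x) i = _
    rw [D.mv_sh hm.ne', hbs]
  · have h1 : n1 D.h 0 (fun y => (fun i => cutf D ((m : ℝ) / 2) a (D.mv m y) i + b y i) - a y) x =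
        n1 D.h 0 (fun y i => (((psi ((m : ℝ) / 2) (D.f y) : ℝ) : ℂ) - 1) • a y i + b y i) x := by
      have h3 : ((fun i => cutf D ((m : ℝ) / 2) a (D.mv m x) i + b x i) - a x) =
          fun i => (((psi ((m : ℝ) / 2) (D.f x) : ℝ) : ℂ) - 1) • a x i + b x i := by
        rw [cutf_mv D hm a hx]
        funext i
        simp only [Pi.sub_apply, cutf, smul_eq_mul]
        ring
      simp only [n1, nsq1, h3]
    rw [h1]
    refine (n1_add_le D.herm 0 _ _ x).trans ?_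
    have h3 := n1_cutf_sub_le D (c := (m : ℝ) / 2) hN hCa hd x
    have h7 := hnb x
    calc _ ≤ Ca * Real.exp N * Real.exp (-(N * (m / 2))) +
          C₂ * (2 * K * G * Ca * Real.exp N * Real.exp (-(N * (m / 2)))) := add_le_add h3 h7
      _ = _ := by ring

/-- **XA-EX**: `ExLeaf` from `T2Leaf` (used for the trivial bundle only) and `T2sLeaf` -/
theorem exLeaf (hT2 : D.T2Leaf) (hT2s : D.T2sLeaf) : D.ExLeaf := by
  classical
  intro ι _ _ L i₀ R hR N hN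
  obtain ⟨a, hE⟩ := exists_endTriv D hT2s L i₀ hR hN
  obtain ⟨Ca, hCa⟩ := hE.decay
  obtain ⟨K, hK0, hK⟩ := exists_deriv_chi
  obtain ⟨G, hG0, hG⟩ := exists_n1_dbar_f D
  obtain ⟨m₁, C₂, hC₂, h2⟩ := hT2 ι (LB.triv i₀) i₀ (fun _ _ => 0) 0 1 2 (fun _ => LB.triv i₀)
    (fun _ _ _ => 0) one_pos (XTData.endTriv_triv D i₀ 0 1) (XTData.perSeq_triv D i₀ 1) 0
  have hd : ∀ x, n1 D.h 0 a x ≤ max Ca 0 * Real.exp (-(N * |D.f x|)) := fun x =>
    (hCa x).trans (mul_le_mul_of_nonneg_right (le_max_left _ _) (Real.exp_pos _).le)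
  obtain ⟨m₂, hm₂⟩ := exists_nat_ge (2 * R + 2)
  have hR' : ∀ x, R ≤ |D.f x| → L.P x = Matrix.single i₀ i₀ 1 := hR
  have hm : ∀ m : ℕ, max (max m₁ m₂) 2 ≤ m → 0 < (m : ℤ) := fun m h => by
    have : 2 ≤ m := (le_max_right _ _).trans h
    omega
  have hmR : ∀ m : ℕ, max (max m₁ m₂) 2 ≤ m → 2 * R + 2 ≤ ((m : ℤ) : ℝ) := fun m h => by
    have h3 : m₂ ≤ m := ((le_max_right _ _).trans (le_max_left _ _)).trans h
    have h4 : (m₂ : ℝ) ≤ m := by exact_mod_cast h3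
    push_cast
    linarith
  have key : ∀ m : ℕ, ∀ h : max (max m₁ m₂) 2 ≤ m, ∃ am : M → Fin 2 → ℂ,
      (perL D L i₀ hR' m (hm m h) (hmR m h)).IsHol am ∧ (∀ x, am (D.sh m x) = am x) ∧
      ∀ x, |D.f x| ≤ (m : ℝ) / 2 → n1 D.h 0 (fun y => am y - a y) x ≤
        (max Ca 0 * Real.exp N + C₂ * (2 * K * G * max Ca 0 * Real.exp N)) *
          Real.exp (-(N * (m / 2))) := by
    intro m h
    have h3 : m₁ ≤ m := ((le_max_left _ _).trans (le_max_left _ _)).trans h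
    exact exists_window D L i₀ hR' hN hE.hol (le_max_right _ _) hd hK0 hK hG0 hG m (hm m h)
      (hmR m h) hC₂ ((h2 _ isWt_one).2 m h3 1 one_ne_zero (fun j => by simp))
  choose am h1 h3 h4 using key
  refine ⟨a, max (max m₁ m₂) 2,
    fun m => if h : max (max m₁ m₂) 2 ≤ m then perL D L i₀ hR' m (hm m h) (hmR m h) else L,
    fun m => if h : max (max m₁ m₂) 2 ≤ m then am m h else a, hE, ?_⟩
  refine ⟨le_max_right _ _, fun m h => ?_, fun m h x => ?_, fun m h x => ?_, ?_⟩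
  · simp only [ge_iff_le] at h
    simp only [dif_pos h]
    exact h1 m h
  · simp only [ge_iff_le] at h
    simp only [dif_pos h]
    rfl
  · simp only [ge_iff_le] at h
    simp only [dif_pos h]
    exact h3 m h x
  · refine ⟨max Ca 0 * Real.exp N + C₂ * (2 * K * G * max Ca 0 * Real.exp N),
      fun m h x hx => ?_⟩
    simp only [ge_iff_le] at h
    simp only [dif_pos h]
    have h5 := h4 m h x hx
    rwa [← mul_div_assoc] at h5

end Vale.Agent.P267.H646
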