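import Vale.Agent.P267.H877.Iface
import Vale.Agent.P267.H877.Norms
import Vale.Agent.P267.H399.LBCalc
import Vale.Agent.P267.H334.Liou

/-!
# P267 / XA-EX, part 1 (helper646): locality of the curvature, periodisation of window objects
-/

set_option linter.unusedVariables false
set_option linter.unusedSectionVars false
set_option linter.unusedSimpArgs false

open scoped Manifold ContDiff ComplexConjugate Matrix ComplexOrder Topology
open MeasureTheory Set Filter

noncomputable section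

namespace Vale.Agent.P267.H646

open FL XT

/-! ### the form `F02` -/

section gen

variable {X : Type*} [TopologicalSpace X] [ChartedSpace C2 X]
variable {ι : Type} [Fintype ι] [DecidableEq ι]

theorem dbM_congr {P Q : X → Matrix ι ι ℂ} {x : X} (h : P =ᶠ[𝓝 x] Q) (k : Fin 2) :
    LB.dbM P x k = LB.dbM Q x k := by
  ext i j
  simp only [LB.dbM, Matrix.of_apply]
  have h1 : (fun y => P y i j) =ᶠ[𝓝 x] fun y => Q y i j := h.mono fun y hy => by
    show P y i j = Q y i j
    rw [hy]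
  exact congrFun (dbar0_congr h1) k

theorem dbM_const {P₀ : Matrix ι ι ℂ} {x : X} (k : Fin 2) : LB.dbM (fun _ : X => P₀) x k = 0 := by
  ext i j
  simp only [LB.dbM, Matrix.of_apply, dbar0_const, Pi.zero_apply, Matrix.zero_apply]

variable [IsManifold 𝓘(ℂ, C2) ω X]

theorem F02_congr {L L' : LB X ι} {x : X} (h : L.P =ᶠ[𝓝 x] L'.P) : L.F02 x = L'.F02 x := by
  rw [LB.F02_eq, LB.F02_eq, dbM_congr h, dbM_congr h, h.self_of_nhds]

theorem F02_eq_zero {L : LB X ι} {x : X} {P₀ : Matrix ι ι ℂ} (h : ∀ᶠ y in 𝓝 x, L.P y = P₀) :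
    L.F02 x = 0 := by
  have h1 : L.P =ᶠ[𝓝 x] fun _ => P₀ := h
  rw [LB.F02_eq, dbM_congr h1, dbM_congr h1, dbM_const, dbM_const]
  simp

theorem reg2_F02 (L : LB X ι) : Reg2 ∞ 0 L.F02 := by
  rw [reg2_iff_at]
  intro x
  have h1 : L.F02 = fun y => ∑ i, ∑ j, L.P y i j • ∑ k,
      (dbar0 0 (fun y => L.P y j k) y 0 • dbar0 0 (fun y => L.P y k i) y 1 -
        dbar0 0 (fun y => L.P y j k) y 1 • dbar0 0 (fun y => L.P y k i) y 0) := by
    funext y
    rw [LB.F02_eq, Matrix.trace]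
    refine Finset.sum_congr rfl fun i _ => ?_
    rw [Matrix.diag_apply, Matrix.mul_apply]
    refine Finset.sum_congr rfl fun j _ => ?_
    rw [smul_eq_mul, Matrix.sub_apply, Matrix.mul_apply, Matrix.mul_apply, Finset.sum_sub_distrib]
    rfl
  rw [h1]
  refine At2.sum fun i _ => At2.sum fun j _ => At2.smul ((L.smooth i j).at x) (At2.sum fun k _ => ?_)
  exact At2.wedge_smul (((L.smooth j k).at x).dbar (by simp)) (((L.smooth k i).at x).dbar (by simp))

end gen

/-! ### windows -/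

section win

variable {M : Type} [TopologicalSpace M] [ChartedSpace C2 M] (D : XTData M)

theorem continuous_f [IsManifold 𝓘(ℂ, C2) ω M] : Continuous D.f := by
  have h := Reg0.continuous D.f_smooth
  exact Complex.continuous_re.comp h

theorem win_eq_of_lt {m : ℤ} (hm : 0 < m) {x : M} {l : ℤ} (h : |D.f x - m * l| < m / 2) :
    D.win m x = l := by
  have hm' : (0 : ℝ) < m := by exact_mod_cast hm
  have h0 : round (D.f x / m - l) = 0 := by
    rw [round_eq_zero_iff]
    have e : D.f x / m - l = (D.f x - m * l) / m := by field_simp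
    rw [e]
    rw [abs_lt] at h
    constructor
    · rw [le_div_iff₀ hm']; linarith [h.1]
    · rw [div_lt_iff₀ hm']; linarith [h.2]
  rw [round_sub_intCast] at h0
  rw [XTData.win]
  omega

theorem f_mv (m : ℤ) (x : M) : D.f (D.mv m x) = D.f x - m * D.win m x := by
  rw [XTData.mv, D.f_sh]
  push_cast
  ring

variable [IsManifold 𝓘(ℂ, C2) ω M]

/-- window objects which are constant near the boundary of the window: the periodisation is locally
a translate -/
theorem mv_germ {α : Type*} {m : ℤ} (hm : 0 < m) {δ : ℝ} (hδ : 0 < δ) {u : M → α} {c : α}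
    (hu : ∀ y, (m : ℝ) / 2 - δ < |D.f y| → u y = c) (x : M) :
    (fun y => u (D.mv m y)) =ᶠ[𝓝 x] fun y => u (D.sh (-(m * D.win m x)) y) := by
  have hc : Continuous fun y => |D.f (D.sh (-(m * D.win m x)) y)| :=
    ((continuous_f D).comp (D.continuous_sh _)).abs
  rcases (D.abs_f_mv hm x).lt_or_eq with h | h
  · have h1 : ∀ᶠ y in 𝓝 x, |D.f (D.sh (-(m * D.win m x)) y)| < m / 2 :=
      hc.continuousAt.eventually (gt_mem_nhds h)
    filter_upwards [h1] with y hy
    have h2 : D.win m y = D.win m x := by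
      apply win_eq_of_lt D hm
      rw [D.f_sh] at hy
      convert hy using 2
      push_cast
      ring
    rw [XTData.mv, h2]
  · have h1 : ∀ᶠ y in 𝓝 x, (m : ℝ) / 2 - δ < |D.f (D.sh (-(m * D.win m x)) y)| := by
      refine hc.continuousAt.eventually (lt_mem_nhds ?_)
      show (m : ℝ) / 2 - δ < |D.f (D.mv m x)|
      rw [h]
      linarith
    have h2 : ∀ᶠ y in 𝓝 x, |D.f x - D.f y| < δ := by
      have hc2 : Continuous fun y => |D.f x - D.f y| := (continuous_const.sub (continuous_f D)).abs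
      refine hc2.continuousAt.eventually (gt_mem_nhds ?_)
      simpa using hδ
    filter_upwards [h1, h2] with y hy1 hy2
    rw [hu _ hy1]
    apply hu
    by_contra hcon
    push Not at hcon
    rw [f_mv] at hcon
    have h3 : |D.f x - m * D.win m y| < m / 2 := by
      have : D.f x - m * D.win m y = (D.f x - D.f y) + (D.f y - m * D.win m y) := by ring
      rw [this]
      exact lt_of_le_of_lt (abs_add_le _ _) (by linarith)
    have h4 := win_eq_of_lt D hm h3
    rw [← h4, ← f_mv, h] at h3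
    exact lt_irrefl _ h3

variable {V : Type*} [NormedAddCommGroup V] [NormedSpace ℂ V]

theorem reg0_per {n : WithTop ℕ∞} {κ : ℤ} {m : ℤ} (hm : 0 < m) {δ : ℝ} (hδ : 0 < δ) {u : M → V}
    {c : V} (hu : ∀ y, (m : ℝ) / 2 - δ < |D.f y| → u y = c) (hr : Reg0 n κ u) :
    Reg0 n κ fun y => u (D.mv m y) :=
  reg0_iff_at.2 fun x => (((D.chartMap_sh _).reg0_comp hr).at x).congr (mv_germ D hm hδ hu x)

theorem reg1_per {n : WithTop ℕ∞} {κ : ℤ} {m : ℤ} (hm : 0 < m) {δ : ℝ} (hδ : 0 < δ)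
    {u : M → Fin 2 → V} {c : Fin 2 → V} (hu : ∀ y, (m : ℝ) / 2 - δ < |D.f y| → u y = c)
    (hr : Reg1 n κ u) : Reg1 n κ fun y => u (D.mv m y) :=
  reg1_iff_at.2 fun x => (((D.chartMap_sh _).reg1_comp hr).at x).congr (mv_germ D hm hδ hu x)

theorem reg2_per {n : WithTop ℕ∞} {κ : ℤ} {m : ℤ} (hm : 0 < m) {δ : ℝ} (hδ : 0 < δ) {u : M → V}
    {c : V} (hu : ∀ y, (m : ℝ) / 2 - δ < |D.f y| → u y = c) (hr : Reg2 n κ u) :
    Reg2 n κ fun y => u (D.mv m y) :=
  reg2_iff_at.2 fun x => (((D.chartMap_sh _).reg2_comp hr).at x).congr (mv_germ D hm hδ hu x)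

theorem dbar1_per {κ : ℤ} {m : ℤ} (hm : 0 < m) {δ : ℝ} (hδ : 0 < δ)
    {u : M → Fin 2 → V} {c : Fin 2 → V} (hu : ∀ y, (m : ℝ) / 2 - δ < |D.f y| → u y = c) (x : M) :
    dbar1 κ (fun y => u (D.mv m y)) x = dbar1 κ u (D.mv m x) := by
  rw [dbar1_congr (mv_germ D hm hδ hu x)]
  exact (D.chartMap_sh _).dbar1_comp κ u x

/-! ### periodisation of a line bundle -/

variable {ι : Type} [Fintype ι] [DecidableEq ι]

/-- the line bundle on `X_m` which coincides with `L` in the central window -/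
def perL (L : LB M ι) (i₀ : ι) {R : ℝ} (hR : ∀ x, R ≤ |D.f x| → L.P x = Matrix.single i₀ i₀ 1)
    (m : ℤ) (hm : 0 < m) (hmR : 2 * R + 2 ≤ m) : LB M ι where
  P x := L.P (D.mv m x)
  smooth i j := by
    refine reg0_per D hm one_pos (u := fun y => L.P y i j)
      (c := (Matrix.single i₀ i₀ (1 : ℂ)) i j) (fun y hy => ?_) (L.smooth i j)
    rw [hR y (by linarith)]
  herm x := L.herm _
  idem x := L.idem _
  tr x := L.tr _

theorem perL_P (L : LB M ι) (i₀ : ι) {R : ℝ}
    (hR : ∀ x, R ≤ |D.f x| → L.P x = Matrix.single i₀ i₀ 1)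
    (m : ℤ) (hm : 0 < m) (hmR : 2 * R + 2 ≤ m) (x : M) :
    (perL D L i₀ hR m hm hmR).P x = L.P (D.mv m x) := rfl

theorem perL_F02 (L : LB M ι) (i₀ : ι) {R : ℝ}
    (hR : ∀ x, R ≤ |D.f x| → L.P x = Matrix.single i₀ i₀ 1)
    (m : ℤ) (hm : 0 < m) (hmR : 2 * R + 2 ≤ m) (x : M) :
    (perL D L i₀ hR m hm hmR).F02 x = L.F02 (D.mv m x) := by
  have h : (perL D L i₀ hR m hm hmR).P =ᶠ[𝓝 x] (D.shL (-(m * D.win m x)) L).P :=
    mv_germ D hm one_pos (u := L.P) (c := Matrix.single i₀ i₀ 1)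
      (fun y hy => hR y (by linarith)) x
  rw [F02_congr h]
  exact (D.chartMap_sh _).lb_F02 L x

end win

end Vale.Agent.P267.H646
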